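import Vale.Agent.P172.R2.H783.Fam

/-!
# P172: fixed points on products of CAT(0) spaces, without a bound on the dimension

For every `n` and every `δ < 1/2` there are infinitely many pairwise non-isomorphic infinite
torsion-free word-hyperbolic groups `G` with finite aspherical presentations such that for every
subgroup `Γ` of finite index of `G` (`Γ = G` included) every isometric action of `Γ` on a complete
CAT(0) space `X` has a global fixed point whenever every finite subset of `X` embeds, up to an
arbitrarily small change `η` of the distances, in an `ℓ²`-product, over any index set, of complete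
CAT(0) spaces each of which has geometric dimension at most `n`, or has tangent cones contained in
inner product spaces, or has Izeki–Nayatani invariant at most `δ` (the index set and the factors
may depend on the finite subset and on `η`; for instance `X` embeds isometrically in such a
product, or in an ultralimit of such products). Moreover `Γ` has a fixed point for every isometric
action on a real Hilbert space, and bounded orbits for every action on a space with walls, for
instance on the vertex set of a CAT(0) cube complex of any dimension with its half-spaces.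
-/

namespace Vale.Agent.Results.P172.ProductSpaces

open Vale.Agent.P172 Vale.Agent.P172.H783

universe u v w

theorem result (n : ℕ) (δ : ℝ) (hδ : δ < 1 / 2) :
    ∃ (G : ℕ → Type) (_ : ∀ i, Group (G i)), (∀ i j, Nonempty (G i ≃* G j) → i = j) ∧ ∀ i,
    Vale.Agent.P186.IsHyperbolicGroup (G i) ∧ Infinite (G i) ∧
    (∀ g : G i, ∀ m : ℕ, 0 < m → g ^ m = 1 → g = 1) ∧
    HasAsphPres (G i) ∧ HasFreeRes2 (G i) ∧
    ∀ Γ : Subgroup (G i), Γ.FiniteIndex →
    (∀ (X : Type u) [Nonempty X] [MetricSpace X] [CompleteSpace X] [MulAction Γ X]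
      [IsIsometricSMul Γ X], IsCAT0 X →
      (∀ (F : Finset X) (η : ℝ), 0 < η → ∃ (I : Type v) (Y : I → Type w)
        (_ : ∀ i, MetricSpace (Y i)) (π : (i : I) → X → Y i),
        (∀ i, CompleteSpace (Y i) ∧ IsCAT0 (Y i) ∧
          (GeomDimLE (Y i) n ∨ EuclideanCones (Y i) ∨ IzekiNayataniLE (Y i) δ)) ∧
        ∀ x ∈ F, ∀ y ∈ F, ∃ d : ℝ, 0 ≤ d ∧ |d - dist x y| ≤ η ∧
          HasSum (fun i => dist (π i x) (π i y) ^ 2) (d ^ 2)) →
      ∃ q : X, ∀ g : Γ, g • q = q) ∧
    (∀ (H : Type u) [NormedAddCommGroup H] [InnerProductSpace ℝ H] [CompleteSpace H]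
      [MulAction Γ H] [IsIsometricSMul Γ H], ∃ q : H, ∀ g : Γ, g • q = q) ∧
    (∀ (S : Type u) [MulAction Γ S] (W : Set (Set S)),
      (∀ g : Γ, ∀ A ∈ W, (fun s => g • s) '' A ∈ W) →
      (∀ x y : S, {A ∈ W | x ∈ A ∧ y ∉ A}.Finite) →
      ∀ x : S, ∃ N : ℕ, ∀ g : Γ, {A ∈ W | x ∈ A ∧ g • x ∉ A}.ncard ≤ N) :=
  exists_family (fun G _ => FixAll.{u, v, w} n δ G) (fixAll n δ hδ)

end Vale.Agent.Results.P172.ProductSpaces
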