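import Vale.Agent.P172.R2.H983.Main

/-!
# P172: quasiconvex subgroups and virtual retracts of hyperbolic groups with boundary a 2-sphere

Let `G` be a word-hyperbolic group whose boundary is homeomorphic to the 2-sphere. Every group `H`
with a homomorphism to `G` of finite kernel and quasiconvex image, or with a homomorphism to `G`
that is a quasi-isometric embedding, or that is a retract of a subgroup of finite index of `G`, acts
geometrically on a nonempty proper space that is CAT(-1) and CAT(0).
-/

namespace Vale.Agent.Results.P172.QuasiconvexSubgroups

open Vale.Agent.P172 Vale.Agent.P172.H372 Vale.Agent.P172.H983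

theorem result (G : Type) [Group G] (hG : IsHyperbolicWithSphereBoundary G) (H : Type) [Group H]
    (hH : IsQuasiconvexIn H G ∨ IsUndistortedIn H G ∨ IsVirtualRetract H G) :
    ∃ (X : Type) (_ : MetricSpace X) (_ : MulAction H X), Nonempty X ∧ ProperSpace X ∧
      IsIsometricSMul H X ∧ IsCAT0 X ∧ IsCATNegOne X ∧ IsGeometric H X :=
  main G hG H hH

end Vale.Agent.Results.P172.QuasiconvexSubgroups
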